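import Vale.Agent.P182.H55.AllM
import Vale.Agent.P182.H810.GlueAll

/-!
# P182: the saturation property of all even spin groups, for all multiples

Every dominant weight of `Spin(2n)` is the highest weight of a finite-dimensional irreducible
module.  Let `n ≥ 2` and let `lam`, `mu`, `nu` be dominant weights of `Spin(2n)` (all coordinates
integral or all coordinates half-integral) whose sum lies in the root lattice.  If for some `N ≥ 1`
the tensor product of the irreducible modules with highest weights `N lam`, `N mu`, `N nu` has a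
nonzero invariant, then for every `M ≥ 1` (in particular for `M = 1`) so has the tensor product of
the irreducible modules with highest weights `M lam`, `M mu`, `M nu`.
-/

namespace Vale.Agent.Results.P182.SaturationAllMultiples

open Vale.Agent.P182

/-- Every dominant weight is the highest weight of a finite-dimensional irreducible module. -/
theorem exists_module {n : ℕ} {lam : Fin n → ℚ} (hl : IsDominant lam) :
    ∃ (V : Type) (_ : AddCommGroup V) (_ : Module ℂ V) (_ : LieRingModule (so n) V)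
      (_ : LieModule ℂ (so n) V), FiniteDimensional ℂ V ∧
        LieModule.IsIrreducible ℂ (so n) V ∧ HasHighestWeight lam V := by
  obtain ⟨E₀, i₀, j₀, k₀, l₀, m₀, u₀, n₀, a₀, z₀, H₀⟩ := exists_model hl
  refine ⟨cyc (triD n) H₀, inferInstance, inferInstance, inferInstance, inferInstance,
    inferInstanceAs (FiniteDimensional ℂ (cyc (triD n) H₀).toSubmodule),
    cyc_irred u₀ tau_tau (triD n) H₀ z₀, ⟨⟨a₀, self_mem_cyc _ H₀⟩, ?_, ?_, ?_⟩⟩
  · intro h
    exact z₀ (congrArg Subtype.val h)
  · intro a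
    apply Subtype.ext
    exact ((isHW_iff lam a₀).mp H₀).1 a
  · intro x hx
    apply Subtype.ext
    exact ((isHW_iff lam a₀).mp H₀).2 x hx

/-- **`Spin(2n)` has the saturation property for every `n ≥ 2`, for all multiples.** -/
theorem result :
    (∀ (n : ℕ) (lam : Fin n → ℚ), IsDominant lam →
      ∃ (V : Type) (_ : AddCommGroup V) (_ : Module ℂ V) (_ : LieRingModule (so n) V)
        (_ : LieModule ℂ (so n) V), FiniteDimensional ℂ V ∧
          LieModule.IsIrreducible ℂ (so n) V ∧ HasHighestWeight lam V) ∧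
    ∀ (n : ℕ), 2 ≤ n → ∀ (lam mu nu : Fin n → ℚ),
      IsDominant lam → IsDominant mu → IsDominant nu → InRootLattice (lam + mu + nu) →
      ∀ (N M : ℕ), 1 ≤ N → 1 ≤ M → ∀ (W₁ W₂ W₃ V₁ V₂ V₃ : Type*)
      [AddCommGroup W₁] [Module ℂ W₁] [LieRingModule (so n) W₁] [LieModule ℂ (so n) W₁]
      [AddCommGroup W₂] [Module ℂ W₂] [LieRingModule (so n) W₂] [LieModule ℂ (so n) W₂]
      [AddCommGroup W₃] [Module ℂ W₃] [LieRingModule (so n) W₃] [LieModule ℂ (so n) W₃]
      [AddCommGroup V₁] [Module ℂ V₁] [LieRingModule (so n) V₁] [LieModule ℂ (so n) V₁]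
      [AddCommGroup V₂] [Module ℂ V₂] [LieRingModule (so n) V₂] [LieModule ℂ (so n) V₂]
      [AddCommGroup V₃] [Module ℂ V₃] [LieRingModule (so n) V₃] [LieModule ℂ (so n) V₃]
      [LieModule.IsIrreducible ℂ (so n) W₁] [LieModule.IsIrreducible ℂ (so n) W₂]
      [LieModule.IsIrreducible ℂ (so n) W₃] [LieModule.IsIrreducible ℂ (so n) V₁]
      [LieModule.IsIrreducible ℂ (so n) V₂] [LieModule.IsIrreducible ℂ (so n) V₃],
      HasHighestWeight (fun i => N * lam i) W₁ → HasHighestWeight (fun i => N * mu i) W₂ →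
      HasHighestWeight (fun i => N * nu i) W₃ → HasHighestWeight (fun i => M * lam i) V₁ →
      HasHighestWeight (fun i => M * mu i) V₂ → HasHighestWeight (fun i => M * nu i) V₃ →
      HasInvariants (n := n) W₁ W₂ W₃ → HasInvariants (n := n) V₁ V₂ V₃ :=
  ⟨fun _ _ hl => exists_module hl,
    fun _ hn _ _ _ hlam hmu hnu hQ _ _ hN hM _ _ _ _ _ _ _ _ _ _ _ _ _ _ _ _ _ _ _ _ _ _ _ _ _ _ _ _
      _ _ _ _ _ _ _ _ hW₁ hW₂ hW₃ hV₁ hV₂ hV₃ h =>
    H55.allMultiples_of_glueAll H810.glueAll' hn hlam hmu hnu hQ hN hM hW₁ hW₂ hW₃ hV₁ hV₂ hV₃ h⟩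

end Vale.Agent.Results.P182.SaturationAllMultiples
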