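import Vale.Agent.P182.H810.TopInt
import Vale.Agent.P182.H810.GlueAll

/-!
# P182: saturation for weights with integral coordinates, factor two for all weights

Let `n ≥ 2` and let `lam`, `mu`, `nu` be dominant weights of `Spin(2n)` whose sum lies in the root
lattice.  If for some `N ≥ 1` the tensor product of the irreducible modules with highest weights
`N lam`, `N mu`, `N nu` has a nonzero invariant, then so has the tensor product of the irreducible
modules with highest weights `k lam`, `k mu`, `k nu`, for `k = 2`, and for `k = 1` if all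
coordinates of `lam`, `mu`, `nu` are integers.
-/

namespace Vale.Agent.Results.P182.SaturationIntegral

open Vale.Agent.P182

/-- **Saturation for integral coordinates, factor two for all weights of `Spin(2n)`.** -/
theorem result
    {n : ℕ} (hn : 2 ≤ n) {lam mu nu : Fin n → ℚ}
    (hlam : IsDominant lam) (hmu : IsDominant mu) (hnu : IsDominant nu)
    (hQ : InRootLattice (lam + mu + nu)) {N : ℕ} (hN : 1 ≤ N) {k : ℕ}
    (hk : k = 2 ∨ k = 1 ∧ ∀ i, ∃ a b c : ℤ, lam i = a ∧ mu i = b ∧ nu i = c)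
    {W₁ W₂ W₃ V₁ V₂ V₃ : Type*}
    [AddCommGroup W₁] [Module ℂ W₁] [LieRingModule (so n) W₁] [LieModule ℂ (so n) W₁]
    [AddCommGroup W₂] [Module ℂ W₂] [LieRingModule (so n) W₂] [LieModule ℂ (so n) W₂]
    [AddCommGroup W₃] [Module ℂ W₃] [LieRingModule (so n) W₃] [LieModule ℂ (so n) W₃]
    [AddCommGroup V₁] [Module ℂ V₁] [LieRingModule (so n) V₁] [LieModule ℂ (so n) V₁]
    [AddCommGroup V₂] [Module ℂ V₂] [LieRingModule (so n) V₂] [LieModule ℂ (so n) V₂]
    [AddCommGroup V₃] [Module ℂ V₃] [LieRingModule (so n) V₃] [LieModule ℂ (so n) V₃]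
    [LieModule.IsIrreducible ℂ (so n) W₁] [LieModule.IsIrreducible ℂ (so n) W₂]
    [LieModule.IsIrreducible ℂ (so n) W₃] [LieModule.IsIrreducible ℂ (so n) V₁]
    [LieModule.IsIrreducible ℂ (so n) V₂] [LieModule.IsIrreducible ℂ (so n) V₃]
    (hW₁ : HasHighestWeight (fun i => N * lam i) W₁)
    (hW₂ : HasHighestWeight (fun i => N * mu i) W₂)
    (hW₃ : HasHighestWeight (fun i => N * nu i) W₃)
    (hV₁ : HasHighestWeight (fun i => k * lam i) V₁)
    (hV₂ : HasHighestWeight (fun i => k * mu i) V₂)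
    (hV₃ : HasHighestWeight (fun i => k * nu i) V₃)
    (h : HasInvariants (n := n) W₁ W₂ W₃) : HasInvariants (n := n) V₁ V₂ V₃ :=
  H810.integral_of_glue H810.glueAll hn hlam hmu hnu hQ hN hk hW₁ hW₂ hW₃ hV₁ hV₂ hV₃ h

end Vale.Agent.Results.P182.SaturationIntegral
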