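import Vale.Agent.P182.H810.Few

/-!
# P182: saturation for weights of `Spin(2n)` with integer coordinates and at most six columns

Let `n ≥ 2` be arbitrary and let `lam`, `mu`, `nu` be dominant weights of `Spin(2n)` with integer
coordinates, sum in the root lattice and `lam₁ + mu₁ + nu₁ ≤ 6`.  If for some `N ≥ 1` the tensor
product of the irreducible modules with highest weights `N lam`, `N mu`, `N nu` has a nonzero
invariant, then so has the tensor product of the irreducible modules with highest weights `lam`,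
`mu`, `nu`.
-/

namespace Vale.Agent.Results.P182.SaturationSixColumns

open Vale.Agent.P182

/-- **Saturation for integral weights of `Spin(2n)` with `lam₁ + mu₁ + nu₁ ≤ 6`, all `n`.** -/
theorem result
    {n : ℕ} (hn : 2 ≤ n) {lam mu nu : Fin n → ℚ}
    (hlam : IsDominant lam) (hmu : IsDominant mu) (hnu : IsDominant nu)
    (hint : ∀ i, ∃ a b c : ℤ, lam i = a ∧ mu i = b ∧ nu i = c)
    (hQ : InRootLattice (lam + mu + nu))
    (h6 : lam ⟨0, by omega⟩ + mu ⟨0, by omega⟩ + nu ⟨0, by omega⟩ ≤ 6)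
    {N : ℕ} (hN : 1 ≤ N)
    {W₁ W₂ W₃ V₁ V₂ V₃ : Type*}
    [AddCommGroup W₁] [Module ℂ W₁] [LieRingModule (so n) W₁] [LieModule ℂ (so n) W₁]
    [AddCommGroup W₂] [Module ℂ W₂] [LieRingModule (so n) W₂] [LieModule ℂ (so n) W₂]
    [AddCommGroup W₃] [Module ℂ W₃] [LieRingModule (so n) W₃] [LieModule ℂ (so n) W₃]
    [AddCommGroup V₁] [Module ℂ V₁] [LieRingModule (so n) V₁] [LieModule ℂ (so n) V₁]
    [AddCommGroup V₂] [Module ℂ V₂] [LieRingModule (so n) V₂] [LieModule ℂ (so n) V₂]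
    [AddCommGroup V₃] [Module ℂ V₃] [LieRingModule (so n) V₃] [LieModule ℂ (so n) V₃]
    [LieModule.IsIrreducible ℂ (so n) W₁] [LieModule.IsIrreducible ℂ (so n) W₂]
    [LieModule.IsIrreducible ℂ (so n) W₃] [LieModule.IsIrreducible ℂ (so n) V₁]
    [LieModule.IsIrreducible ℂ (so n) V₂] [LieModule.IsIrreducible ℂ (so n) V₃]
    (hW₁ : HasHighestWeight (fun i => N * lam i) W₁)
    (hW₂ : HasHighestWeight (fun i => N * mu i) W₂)
    (hW₃ : HasHighestWeight (fun i => N * nu i) W₃)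
    (hV₁ : HasHighestWeight lam V₁) (hV₂ : HasHighestWeight mu V₂)
    (hV₃ : HasHighestWeight nu V₃)
    (h : HasInvariants (n := n) W₁ W₂ W₃) : HasInvariants (n := n) V₁ V₂ V₃ :=
  H810.few hn hlam hmu hnu hint hQ h6 hN hW₁ hW₂ hW₃ hV₁ hV₂ hV₃ h

end Vale.Agent.Results.P182.SaturationSixColumns
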